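import Crest.Agent.Lib.Coh.Mdl

/-!
# Induction and recursion along a tower

* `glueDesc`: the pushout property of a globular theory on designated squares.
* `subTheory`: the subtheory of operations satisfying a predicate closed under the structure.
* `tower_induction`: a predicate closed under the structure and holding on generators holds for all
  operations.
* `tower_family`: recursion along the tower for a family of target theories, with invariants.
-/

set_option autoImplicit false

open CategoryTheory CategoryTheory.Limits Opposite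
open Crest.GeometryTopology.Coherator
open Crest.GeometryTopology.Coherator.GlobTheory

universe u v

namespace Crest.Agent.Coh

/-! ### The pushout property -/

section glueDesc

variable (D : GlobTheory.{u}) (S : Shape) {b h : ℕ} (hb : b < S.last) (hh : b < h) {U : Shape}

/-- The map out of a gluing in a theory. -/
noncomputable def glueDesc (a : D.arr S U) (c : D.arr (Shape.globe h) U)
    (w : D.seq (D.ofShape (S.hinge hb)) a = D.seq (D.ofShape (Shape.faceMap hh false)) c) :
    D.arr (S.glue b h hb hh) U :=
  (D.respectsSums S b h hb hh).desc (W := (⟨U⟩ : D.Ob)) a c w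

theorem glueDesc_inl (a : D.arr S U) (c : D.arr (Shape.globe h) U)
    (w : D.seq (D.ofShape (S.hinge hb)) a = D.seq (D.ofShape (Shape.faceMap hh false)) c) :
    D.seq (D.ofShape (S.inLeft b h hb hh)) (glueDesc D S hb hh a c w) = a :=
  (D.respectsSums S b h hb hh).inl_desc (W := (⟨U⟩ : D.Ob)) a c w

theorem glueDesc_inr (a : D.arr S U) (c : D.arr (Shape.globe h) U)
    (w : D.seq (D.ofShape (S.hinge hb)) a = D.seq (D.ofShape (Shape.faceMap hh false)) c) :
    D.seq (D.ofShape (S.inRight b h hb hh)) (glueDesc D S hb hh a c w) = c :=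
  (D.respectsSums S b h hb hh).inr_desc (W := (⟨U⟩ : D.Ob)) a c w

theorem glue_hom_ext {f g : D.arr (S.glue b h hb hh) U}
    (h1 : D.seq (D.ofShape (S.inLeft b h hb hh)) f = D.seq (D.ofShape (S.inLeft b h hb hh)) g)
    (h2 : D.seq (D.ofShape (S.inRight b h hb hh)) f = D.seq (D.ofShape (S.inRight b h hb hh)) g) :
    f = g :=
  (D.respectsSums S b h hb hh).hom_ext (W := (⟨U⟩ : D.Ob)) h1 h2

end glueDesc

/-! ### Subtheories -/

section sub

variable (C : GlobTheory.{u}) (Q : ∀ {S T : Shape}, C.arr S T → Prop)

/-- A predicate on operations closed under the structure of a globular theory. -/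
structure ClosedPred : Prop where
  ofShape : ∀ {S T : Shape} (f : S ⟶ T), Q (C.ofShape f)
  seq : ∀ {R S T : Shape} (f : C.arr R S) (g : C.arr S T), Q f → Q g → Q (C.seq f g)
  desc : ∀ (S : Shape) {b h : ℕ} (hb : b < S.last) (hh : b < h) {U : Shape}
    (a : C.arr S U) (c : C.arr (Shape.globe h) U)
    (w : C.seq (C.ofShape (S.hinge hb)) a = C.seq (C.ofShape (Shape.faceMap hh false)) c),
    Q a → Q c → Q (glueDesc C S hb hh a c w)

variable {C Q}

/-- The subtheory of operations satisfying a closed predicate. -/
noncomputable def subPre (hQ : ClosedPred C @Q) : PreTheory.{u} where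
  arr S T := { o : C.arr S T // Q o }
  one S := ⟨C.one S, by rw [← C.ofShape_id]; exact hQ.ofShape _⟩
  seq f g := ⟨C.seq f.1 g.1, hQ.seq _ _ f.2 g.2⟩
  one_seq f := Subtype.ext (C.one_seq f.1)
  seq_one f := Subtype.ext (C.seq_one f.1)
  seq_assoc f g h := Subtype.ext (C.seq_assoc f.1 g.1 h.1)
  ofShape f := ⟨C.ofShape f, hQ.ofShape f⟩
  ofShape_id S := Subtype.ext (C.ofShape_id S)
  ofShape_comp f g := Subtype.ext (C.ofShape_comp f g)

theorem subPre_sums (hQ : ClosedPred C @Q) : (subPre hQ).RespectsSums := by
  intro S b h hb hh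
  have w : (subPre hQ).incl.map (S.hinge hb) ≫ (subPre hQ).incl.map (S.inLeft b h hb hh) =
      (subPre hQ).incl.map (Shape.faceMap hh false) ≫ (subPre hQ).incl.map (S.inRight b h hb hh) := by
    rw [← Functor.map_comp, ← Functor.map_comp]
    congr 1
    exact (IsPushout.of_hasPushout (GlobPsh.globeRepFace hb true ≫ S.apex)
      (GlobPsh.globeRepFace hh false)).w
  refine IsPushout.of_isColimit (c := PushoutCocone.mk _ _ w) ?_
  refine PushoutCocone.IsColimit.mk _
    (fun s => ⟨glueDesc C S hb hh s.inl.1 s.inr.1 (congrArg Subtype.val s.condition),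
      hQ.desc S hb hh _ _ _ s.inl.2 s.inr.2⟩) ?_ ?_ ?_
  · intro s
    exact Subtype.ext (glueDesc_inl C S hb hh _ _ _)
  · intro s
    exact Subtype.ext (glueDesc_inr C S hb hh _ _ _)
  · intro s m h1 h2
    apply Subtype.ext
    apply glue_hom_ext C S hb hh
    · exact (congrArg Subtype.val h1).trans (glueDesc_inl C S hb hh _ _ _).symm
    · exact (congrArg Subtype.val h2).trans (glueDesc_inr C S hb hh _ _ _).symm

/-- The subtheory of operations satisfying a closed predicate. -/
noncomputable def subTheory (hQ : ClosedPred C @Q) : GlobTheory.{u} where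
  toPreTheory := subPre hQ
  respectsSums := subPre_sums hQ

/-- The inclusion of a subtheory. -/
noncomputable def subIncl (hQ : ClosedPred C @Q) : TheoryMap (subTheory hQ) C where
  map f := f.1
  map_one _ := rfl
  map_seq _ _ := rfl
  map_ofShape _ := rfl

end sub

/-! ### Induction along a tower -/

section induction

variable {C : GlobTheory.{u}} (T : C.Tower)

/-- A generator filler of the tower, as an operation of `C`. -/
def Tw.genOp (r : ℕ) (g : T.gen r) :
    C.arr (Shape.globe ((T.prob r g).n + 1)) (T.prob r g).shape :=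
  (T.toEnd (r + 1)).map (T.fill r g)

/-- Two theory maps out of stage zero agree. -/
theorem Tw.stage_zero_ext {E : GlobTheory.{u}} (F G : TheoryMap (T.stage 0) E) : F = G := by
  obtain ⟨hu⟩ := T.stage_zero E
  exact (hu.eq_default F).trans (hu.eq_default G).symm

/-- A filler in the next stage gives a filler along any compatible map. -/
theorem Tw.filler_of_next {E : GlobTheory.{u}} (r : ℕ) (G' : TheoryMap (T.stage (r + 1)) E)
    (g : T.gen r) :
    IsFillerAlong ((T.next r).comp G') (T.prob r g) (G'.map (T.fill r g)) := by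
  obtain ⟨h1, h2⟩ := (T.free r).1 g
  constructor
  · have := congrArg G'.map h1
    rw [G'.map_seq, G'.map_ofShape] at this
    exact this
  · have := congrArg G'.map h2
    rw [G'.map_seq, G'.map_ofShape] at this
    exact this

/-- Uniqueness of theory maps out of a stage in terms of generators. -/
theorem Tw.free_ext {E : GlobTheory.{u}} (r : ℕ) {F G : TheoryMap (T.stage (r + 1)) E}
    (h1 : (T.next r).comp F = (T.next r).comp G)
    (h2 : ∀ g, F.map (T.fill r g) = G.map (T.fill r g)) : F = G := by
  obtain ⟨H, -, hu⟩ := (T.free r).2 E ((T.next r).comp G) (fun g => G.map (T.fill r g))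
    (fun g => Tw.filler_of_next T r G g)
  rw [hu F ⟨h1, h2⟩, hu G ⟨rfl, fun _ => rfl⟩]

/-- Uniqueness of theory maps out of `C`. -/
theorem Tw.colim_ext {E : GlobTheory.{u}} {F G : TheoryMap C E}
    (h : ∀ r, (T.toEnd r).comp F = (T.toEnd r).comp G) : F = G := by
  obtain ⟨H, -, hu⟩ := T.colim E (fun r => (T.toEnd r).comp G) (by
    intro r
    rw [← T.toEnd_comm r]
    rfl)
  rw [hu F h, hu G (fun _ => rfl)]

/-- The existence of the theory map out of `C` from a compatible sequence. -/
theorem Tw.colim_exists {E : GlobTheory.{u}} (G : ∀ r, TheoryMap (T.stage r) E)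
    (h : ∀ r, (T.next r).comp (G (r + 1)) = G r) :
    ∃ H : TheoryMap C E, ∀ r, (T.toEnd r).comp H = G r :=
  (T.colim E G h).exists

/-- The existence of the theory map out of the next stage. -/
theorem Tw.free_exists {E : GlobTheory.{u}} (r : ℕ) (G : TheoryMap (T.stage r) E)
    (w : (g : T.gen r) → E.arr (Shape.globe ((T.prob r g).n + 1)) (T.prob r g).shape)
    (hw : ∀ g, IsFillerAlong G (T.prob r g) (w g)) :
    ∃ H : TheoryMap (T.stage (r + 1)) E, (T.next r).comp H = G ∧ ∀ g, H.map (T.fill r g) = w g :=
  ((T.free r).2 E G w hw).exists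

variable {Q : ∀ {S T : Shape}, C.arr S T → Prop}

/-- The recursive step for the tower induction. -/
theorem Tw.ind_step (hQ : ClosedPred C @Q) (hg : ∀ r g, Q (Tw.genOp T r g)) (r : ℕ)
    (H : TheoryMap (T.stage r) (subTheory hQ)) (hH : H.comp (subIncl hQ) = T.toEnd r) :
    ∃ H' : TheoryMap (T.stage (r + 1)) (subTheory hQ),
      (T.next r).comp H' = H ∧ H'.comp (subIncl hQ) = T.toEnd (r + 1) := by
  have hw : ∀ g : T.gen r, IsFillerAlong H (T.prob r g) (⟨Tw.genOp T r g, hg r g⟩) := by
    intro g
    obtain ⟨h1, h2⟩ := Tw.filler_of_next T r (T.toEnd (r + 1)) g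
    rw [T.toEnd_comm r] at h1 h2
    constructor
    · apply Subtype.ext
      refine h1.trans ?_
      rw [← hH]
      rfl
    · apply Subtype.ext
      refine h2.trans ?_
      rw [← hH]
      rfl
  obtain ⟨H', h1, h2⟩ := Tw.free_exists T r H (fun g => ⟨Tw.genOp T r g, hg r g⟩) hw
  refine ⟨H', h1, ?_⟩
  apply Tw.free_ext T r
  · rw [T.toEnd_comm r, ← hH, ← h1]
    rfl
  · intro g
    have := congrArg Subtype.val (h2 g)
    exact this

/-- **Tower induction.** A predicate on operations closed under the theory structure and holding on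
the generator fillers holds on all operations. -/
theorem Tw.induction (hQ : ClosedPred C @Q) (hg : ∀ r g, Q (Tw.genOp T r g))
    {S U : Shape} (o : C.arr S U) : Q o := by
  classical
  let X : ℕ → Type _ := fun r =>
    { H : TheoryMap (T.stage r) (subTheory hQ) // H.comp (subIncl hQ) = T.toEnd r }
  have x0 : X 0 := ⟨(T.stage_zero (subTheory hQ)).some.default, Tw.stage_zero_ext T _ _⟩
  let step : ∀ r, X r → X (r + 1) := fun r x =>
    ⟨Classical.choose (Tw.ind_step T hQ hg r x.1 x.2),
      (Classical.choose_spec (Tw.ind_step T hQ hg r x.1 x.2)).2⟩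
  have hstep : ∀ r (x : X r), (T.next r).comp (step r x).1 = x.1 := fun r x =>
    (Classical.choose_spec (Tw.ind_step T hQ hg r x.1 x.2)).1
  let seqX : ∀ r, X r := fun r => Nat.rec x0 step r
  obtain ⟨H, hH⟩ := Tw.colim_exists T (fun r => (seqX r).1) (fun r => hstep r (seqX r))
  have hid : H.comp (subIncl hQ) = TheoryMap.id C := by
    apply Tw.colim_ext T
    intro r
    have : (T.toEnd r).comp (H.comp (subIncl hQ)) = ((T.toEnd r).comp H).comp (subIncl hQ) := rfl
    rw [this, hH r]
    exact (seqX r).2
  have e : (H.map o).1 = o := by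
    have := congrArg (fun F : TheoryMap C C => F.map o) hid
    exact this
  rw [← e]
  exact (H.map o).2

end induction

/-! ### Generators suffice -/

section comm

variable {C : GlobTheory.{u}} (T : C.Tower) {P P' : GlobPsh.{u}}

theorem Tup.pre_glue_act (F : TheoryMap C (EndT P)) (S : Shape) {b h : ℕ} (hb : b < S.last)
    (hh : b < h) {U : Shape} (a : C.arr S U) (c : C.arr (Shape.globe h) U)
    (w : C.seq (C.ofShape (S.hinge hb)) a = C.seq (C.ofShape (Shape.faceMap hh false)) c)
    (τ : Tup P U) :
    Tup.pre (S.inLeft b h hb hh) (F.map (glueDesc C S hb hh a c w) τ) = F.map a τ ∧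
      Tup.pre (S.inRight b h hb hh) (F.map (glueDesc C S hb hh a c w) τ) = F.map c τ := by
  constructor
  · have := congrArg F.map (glueDesc_inl C S hb hh a c w)
    rw [F.map_seq, F.map_ofShape] at this
    exact congrFun this τ
  · have := congrArg F.map (glueDesc_inr C S hb hh a c w)
    rw [F.map_seq, F.map_ofShape] at this
    exact congrFun this τ

/-- The predicate "commutes with `φ`" is closed. -/
theorem comm_closed' (F : TheoryMap C (EndT P)) (F' : TheoryMap C (EndT P')) (φ : P ⟶ P') :
    ClosedPred C (fun {S U} o => ∀ τ : Tup P U, F.map o τ ≫ φ = F'.map o (τ ≫ φ)) where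
  ofShape f τ := by
    rw [F.map_ofShape, F'.map_ofShape]
    exact (Tup.pre_map f τ φ).symm
  seq f g hf hg τ := by
    rw [F.map_seq, F'.map_seq]
    change F.map f (F.map g τ) ≫ φ = F'.map f (F'.map g (τ ≫ φ))
    rw [hf, hg]
  desc S b h hb hh U a c w ha hc τ := by
    obtain ⟨h1, h2⟩ := Tup.pre_glue_act F S hb hh a c w τ
    obtain ⟨h1', h2'⟩ := Tup.pre_glue_act F' S hb hh a c w (τ ≫ φ)
    apply Tup.glue_ext
    · rw [Tup.pre_map, h1, h1', ha]
    · change tCell (Tup.pre (S.inRight b h hb hh) _) = tCell (Tup.pre (S.inRight b h hb hh) _)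
      rw [Tup.pre_map, h2, h2', hc]

end comm

/-! ### Recursion along a tower -/

section rec

variable {C : GlobTheory.{u}} (T : C.Tower) {I : Type v} (E : I → GlobTheory.{u})

/-- **Recursion along a tower** for a family of target theories, with invariants `Good`.
At each stage, from a good family of maps out of stage `r`, one provides fillers for the generating
pairs such that every compatible extension is good. -/
theorem Tower.family_exists
    (Good : ∀ r, (∀ z, TheoryMap (T.stage r) (E z)) → Prop)
    (good_zero : ∀ G, Good 0 G)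
    (step : ∀ r (G : ∀ z, TheoryMap (T.stage r) (E z)), Good r G →
      ∃ w : ∀ z (g : T.gen r),
        (E z).arr (Shape.globe ((T.prob r g).n + 1)) (T.prob r g).shape,
        (∀ z g, IsFillerAlong (G z) (T.prob r g) (w z g)) ∧
        ∀ G' : ∀ z, TheoryMap (T.stage (r + 1)) (E z),
          (∀ z, (T.next r).comp (G' z) = G z) →
          (∀ z g, (G' z).map (T.fill r g) = w z g) → Good (r + 1) G') :
    ∃ (F : ∀ r z, TheoryMap (T.stage r) (E z)) (H : ∀ z, TheoryMap C (E z)),
      (∀ r, Good r (F r)) ∧ (∀ r z, (T.next r).comp (F (r + 1) z) = F r z) ∧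
      ∀ r z, (T.toEnd r).comp (H z) = F r z := by
  classical
  let X : ℕ → Type _ := fun r => { G : ∀ z, TheoryMap (T.stage r) (E z) // Good r G }
  have x0 : X 0 := by
    refine ⟨fun z => ?_, good_zero _⟩
    exact (T.stage_zero (E z)).some.default
  have hstep : ∀ r (x : X r), ∃ y : X (r + 1), ∀ z, (T.next r).comp (y.1 z) = x.1 z := by
    intro r x
    obtain ⟨w, hw, hgood⟩ := step r x.1 x.2
    have hex : ∀ z, ∃ H : TheoryMap (T.stage (r + 1)) (E z),
        (T.next r).comp H = x.1 z ∧ ∀ g, H.map (T.fill r g) = w z g :=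
      fun z => Tw.free_exists T r (x.1 z) (w z) (hw z)
    choose G' h1 h2 using hex
    exact ⟨⟨G', hgood G' h1 h2⟩, h1⟩
  let st : ∀ r, X r → X (r + 1) := fun r x => Classical.choose (hstep r x)
  have hst : ∀ r (x : X r) z, (T.next r).comp ((st r x).1 z) = x.1 z :=
    fun r x => Classical.choose_spec (hstep r x)
  let seqX : ∀ r, X r := fun r => Nat.rec x0 st r
  have hcol : ∀ z, ∃ H : TheoryMap C (E z), ∀ r, (T.toEnd r).comp H = (seqX r).1 z :=
    fun z => Tw.colim_exists T (fun r => (seqX r).1 z) (fun r => hst r (seqX r) z)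
  choose H hH using hcol
  exact ⟨fun r => (seqX r).1, H, fun r => (seqX r).2, fun r z => hst r (seqX r) z, fun r z => hH z r⟩

end rec

end Crest.Agent.Coh
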